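import Mathlib

/-! The exact angular diameter of a cell of the fan over a regular simplex. -/

open scoped RealInnerProductSpace
open InnerProductGeometry

namespace Vale.Agent.P052.R3.H436

/-- Moving the coordinates to the ends of their intervals. -/
theorem vertex {N : ℕ} (c e : Fin N → ℝ) (hec : ∀ i, |e i| ≤ c i) (n : ℝ) (hn : 1 ≤ n)
    (S : Finset (Fin N)) :
    ∃ f : Fin N → ℝ, (∀ i ∈ S, f i = c i ∨ f i = -c i) ∧ (∀ i, i ∉ S → f i = e i) ∧
      n * ∑ i, e i ^ 2 - (∑ i, e i) ^ 2 ≤ n * ∑ i, f i ^ 2 - (∑ i, f i) ^ 2 := by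
  classical
  induction S using Finset.induction_on with
  | empty => exact ⟨e, by simp, fun _ _ => rfl, le_rfl⟩
  | insert i S hi ih =>
    obtain ⟨f, hf1, hf2, hf3⟩ := ih
    set s := ∑ j ∈ Finset.univ.erase i, f j with hs
    set q := ∑ j ∈ Finset.univ.erase i, f j ^ 2 with hq
    have hfi : f i = e i := hf2 i hi
    have hci : |f i| ≤ c i := by rw [hfi]; exact hec i
    have hexp : ∀ t : ℝ, n * ∑ j, (Function.update f i t) j ^ 2 -
        (∑ j, (Function.update f i t) j) ^ 2 = n * (t ^ 2 + q) - (t + s) ^ 2 := by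
      intro t
      rw [← Finset.add_sum_erase _ _ (Finset.mem_univ i),
        ← Finset.add_sum_erase _ (Function.update f i t) (Finset.mem_univ i)]
      rw [Function.update_self]
      have h1 : ∑ j ∈ Finset.univ.erase i, (Function.update f i t) j ^ 2 = q :=
        Finset.sum_congr rfl fun j hj => by
          rw [Function.update_of_ne (Finset.ne_of_mem_erase hj)]
      have h2 : ∑ j ∈ Finset.univ.erase i, (Function.update f i t) j = s :=
        Finset.sum_congr rfl fun j hj => by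
          rw [Function.update_of_ne (Finset.ne_of_mem_erase hj)]
      rw [h1, h2]
    have hold : n * ∑ j, f j ^ 2 - (∑ j, f j) ^ 2 = n * (f i ^ 2 + q) - (f i + s) ^ 2 := by
      rw [← Finset.add_sum_erase _ _ (Finset.mem_univ i),
        ← Finset.add_sum_erase _ f (Finset.mem_univ i)]
    obtain ⟨h3, h4⟩ := abs_le.1 hci
    have hc0 : 0 ≤ c i := (abs_nonneg _).trans hci
    have hsq : f i ^ 2 ≤ c i ^ 2 := by
      rw [← sq_abs (f i)]
      exact pow_le_pow_left₀ (abs_nonneg _) hci 2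
    rcases le_total s 0 with h0 | h0
    · refine ⟨Function.update f i (c i), ?_, ?_, ?_⟩
      · intro j hj
        rcases eq_or_ne j i with rfl | hji
        · left; rw [Function.update_self]
        · rw [Function.update_of_ne hji]
          exact hf1 j ((Finset.mem_insert.1 hj).resolve_left hji)
      · intro j hj
        rw [Finset.mem_insert, not_or] at hj
        rw [Function.update_of_ne hj.1]
        exact hf2 j hj.2
      · refine hf3.trans ?_
        rw [hexp, hold]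
        nlinarith [mul_nonneg (sub_nonneg.2 hn) (sub_nonneg.2 hsq),
          mul_nonneg (neg_nonneg.2 h0) (sub_nonneg.2 h4)]
    · refine ⟨Function.update f i (-c i), ?_, ?_, ?_⟩
      · intro j hj
        rcases eq_or_ne j i with rfl | hji
        · right; rw [Function.update_self]
        · rw [Function.update_of_ne hji]
          exact hf1 j ((Finset.mem_insert.1 hj).resolve_left hji)
      · intro j hj
        rw [Finset.mem_insert, not_or] at hj
        rw [Function.update_of_ne hj.1]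
        exact hf2 j hj.2
      · refine hf3.trans ?_
        rw [hexp, hold]
        nlinarith [mul_nonneg (sub_nonneg.2 hn) (sub_nonneg.2 hsq),
          mul_nonneg h0 (sub_nonneg.2 h3)]

/-- The inequality for two classes. -/
theorem real_step (κ P M QA QB α β : ℝ) (hκ0 : 0 ≤ κ) (hα : 0 ≤ α) (hβ : 0 ≤ β)
    (hQA : 0 ≤ QA) (hQB : 0 ≤ QB) (hP : P ^ 2 ≤ α * QA) (hM : M ^ 2 ≤ β * QB)
    (hk : α * β ≤ κ ^ 2 * ((α + 1) * (β + 1))) :
    (1 - κ) * ((α + β + 1) * (QA + QB) - (P - M) ^ 2) ≤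
      (1 + κ) * ((α + β + 1) * (QA + QB) - (P + M) ^ 2) := by
  have hX : 0 ≤ κ * ((β + 1) * QA) := by positivity
  have hY : 0 ≤ κ * ((α + 1) * QB) := by positivity
  have h1 : (P * M) ^ 2 ≤ (α * QA) * (β * QB) := by
    rw [mul_pow]
    exact mul_le_mul hP hM (sq_nonneg _) (by positivity)
  have h2 : (α * QA) * (β * QB) ≤ (κ * ((β + 1) * QA)) * (κ * ((α + 1) * QB)) := by
    have h3 := mul_le_mul_of_nonneg_right hk (mul_nonneg hQA hQB)
    calc (α * QA) * (β * QB) = α * β * (QA * QB) := by ring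
      _ ≤ κ ^ 2 * ((α + 1) * (β + 1)) * (QA * QB) := h3
      _ = _ := by ring
  have h4 : (2 * (P * M)) ^ 2 ≤ (κ * ((β + 1) * QA) + κ * ((α + 1) * QB)) ^ 2 := by
    have h5 := sq_nonneg (κ * ((β + 1) * QA) - κ * ((α + 1) * QB))
    have h6 := h1.trans h2
    nlinarith
  have h7 : 2 * (P * M) ≤ κ * ((β + 1) * QA) + κ * ((α + 1) * QB) :=
    (abs_le_of_sq_le_sq' h4 (add_nonneg hX hY)).2
  have h8 := mul_nonneg hκ0 (sub_nonneg.2 hP)
  have h9 := mul_nonneg hκ0 (sub_nonneg.2 hM)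
  nlinarith

/-- The inequality at a vertex. -/
theorem vertex_step {d : ℕ} (c f : Fin (d + 1) → ℝ) (k : Fin (d + 1)) (hck : c k = 0)
    (hf : ∀ i, f i = c i ∨ f i = -c i) (κ : ℝ) (hκ0 : 0 ≤ κ)
    (hκ : ∀ m n : ℕ, m + n = d → (m * n : ℝ) ≤ κ ^ 2 * ((m + 1) * (n + 1))) :
    (1 - κ) * (((d : ℝ) + 1) * ∑ i, f i ^ 2 - (∑ i, f i) ^ 2) ≤
      (1 + κ) * (((d : ℝ) + 1) * ∑ i, c i ^ 2 - (∑ i, c i) ^ 2) := by
  classical
  set A := (Finset.univ.erase k).filter (fun i => f i = c i) with hA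
  set B := (Finset.univ.erase k).filter (fun i => ¬ f i = c i) with hB
  have hsplit : ∀ g : Fin (d + 1) → ℝ, g k = 0 → ∑ i, g i = ∑ i ∈ A, g i + ∑ i ∈ B, g i := by
    intro g hg
    rw [← Finset.add_sum_erase _ _ (Finset.mem_univ k), hg, zero_add]
    exact (Finset.sum_filter_add_sum_filter_not _ _ _).symm
  have hfA : ∀ i ∈ A, f i = c i := fun i hi => (Finset.mem_filter.1 hi).2
  have hfB : ∀ i ∈ B, f i = -c i := fun i hi =>
    (hf i).resolve_left (Finset.mem_filter.1 hi).2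
  have hfk : f k = 0 := by
    rcases hf k with h | h
    · rw [h, hck]
    · rw [h, hck, neg_zero]
  have hfsum : ∑ i, f i = ∑ i ∈ A, c i - ∑ i ∈ B, c i := by
    rw [hsplit f hfk, Finset.sum_congr rfl hfA, Finset.sum_congr rfl hfB,
      Finset.sum_neg_distrib]
    ring
  have hck2 : c k ^ 2 = 0 := by rw [hck]; ring
  have hf2 : ∑ i, f i ^ 2 = ∑ i, c i ^ 2 := by
    refine Finset.sum_congr rfl fun i _ => ?_
    rcases hf i with h | h
    · rw [h]
    · rw [h]; ring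
  have hcard : A.card + B.card = d := by
    rw [hA, hB, Finset.card_filter_add_card_filter_not,
      Finset.card_erase_of_mem (Finset.mem_univ k), Finset.card_univ, Fintype.card_fin,
      Nat.add_sub_cancel]
  have hdR : (d : ℝ) = A.card + B.card := by exact_mod_cast hcard.symm
  rw [hf2, hsplit c hck, hsplit (fun i => c i ^ 2) hck2, hfsum, hdR]
  exact real_step κ _ _ _ _ _ _ hκ0 (Nat.cast_nonneg _) (Nat.cast_nonneg _)
    (Finset.sum_nonneg fun i _ => sq_nonneg _) (Finset.sum_nonneg fun i _ => sq_nonneg _)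
    sq_sum_le_card_mul_sum_sq sq_sum_le_card_mul_sum_sq (hκ _ _ hcard)

/-- Passing to the differences to the largest coordinate. -/
theorem key {d : ℕ} (k : Fin (d + 1)) (s : Fin (d + 1) → ℝ) (hs : ∑ i, s i = 0) :
    ((d : ℝ) + 1) * ∑ i, s i ^ 2 =
      ((d : ℝ) + 1) * ∑ i, (s k - s i) ^ 2 - (∑ i, (s k - s i)) ^ 2 := by
  have h1 : ∑ i, (s k - s i) = (d + 1) * s k := by
    rw [Finset.sum_sub_distrib, hs]
    simp
  have h2 : ∑ i, (s k - s i) ^ 2 = (d + 1) * s k ^ 2 + ∑ i, s i ^ 2 := by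
    have h3 : ∀ i, (s k - s i) ^ 2 = s k ^ 2 - 2 * s k * s i + s i ^ 2 := fun i => by ring
    simp_rw [h3]
    rw [Finset.sum_add_distrib, Finset.sum_sub_distrib, ← Finset.mul_sum, hs]
    simp
  rw [h1, h2]
  ring

/-- Two vectors with sum zero and the largest coordinate at the same place, exact form. -/
theorem cell_exact {d : ℕ} (a b : Fin (d + 1) → ℝ) (ha : ∑ i, a i = 0) (hb : ∑ i, b i = 0)
    (k : Fin (d + 1)) (hak : ∀ j, a j ≤ a k) (hbk : ∀ j, b j ≤ b k) (κ : ℝ) (hκ0 : 0 ≤ κ)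
    (hκ1 : κ ≤ 1)
    (hκ : ∀ m n : ℕ, m + n = d → (m * n : ℝ) ≤ κ ^ 2 * ((m + 1) * (n + 1))) :
    (1 - κ) * ∑ j, (a j - b j) ^ 2 ≤ (1 + κ) * ∑ j, (a j + b j) ^ 2 := by
  have hs := key k (fun i => a i + b i) (by rw [Finset.sum_add_distrib, ha, hb, add_zero])
  have ht := key k (fun i => a i - b i) (by rw [Finset.sum_sub_distrib, ha, hb, sub_zero])
  have hec : ∀ i, |a k - b k - (a i - b i)| ≤ a k + b k - (a i + b i) := by
    intro i
    have h1 := sub_nonneg.2 (hak i)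
    have h2 := sub_nonneg.2 (hbk i)
    rw [abs_le]
    constructor <;> linarith
  obtain ⟨f, hf, -, hfe⟩ := vertex (fun i => a k + b k - (a i + b i))
    (fun i => a k - b k - (a i - b i)) hec ((d : ℝ) + 1)
    (by have : (0 : ℝ) ≤ d := Nat.cast_nonneg d
        linarith) Finset.univ
  have hv := vertex_step (fun i => a k + b k - (a i + b i)) f k (by ring)
    (fun i => hf i (Finset.mem_univ i)) κ hκ0 hκ
  have h9 := mul_le_mul_of_nonneg_left hfe (sub_nonneg.2 hκ1)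
  have hd1 : (0 : ℝ) < (d : ℝ) + 1 := by positivity
  have h10 : ((d : ℝ) + 1) * ((1 - κ) * ∑ j, (a j - b j) ^ 2) ≤
      ((d : ℝ) + 1) * ((1 + κ) * ∑ j, (a j + b j) ^ 2) := by
    have e1 : ((d : ℝ) + 1) * ((1 - κ) * ∑ j, (a j - b j) ^ 2) =
        (1 - κ) * (((d : ℝ) + 1) * ∑ j, (a j - b j) ^ 2) := by ring
    have e2 : ((d : ℝ) + 1) * ((1 + κ) * ∑ j, (a j + b j) ^ 2) =
        (1 + κ) * (((d : ℝ) + 1) * ∑ j, (a j + b j) ^ 2) := by ring
    rw [e1, e2, ht, hs]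
    exact h9.trans hv
  exact le_of_mul_le_mul_left h10 hd1

/-- The constant: `m (d - m) / ((m + 1) (d - m + 1))` for `m = ⌊d / 2⌋`. -/
theorem kappa_ok (d : ℕ) (m n : ℕ) (h : m + n = d) :
    (m * n : ℝ) ≤ (Real.sqrt (((d / 2 : ℕ) * ((d + 1) / 2 : ℕ) : ℝ) /
      (((d / 2 : ℕ) + 1) * (((d + 1) / 2 : ℕ) + 1)))) ^ 2 * ((m + 1) * (n + 1)) := by
  rw [Real.sq_sqrt (by positivity)]
  have hsum : d / 2 + (d + 1) / 2 = d := by omega
  have hmn : m * n ≤ (d / 2) * ((d + 1) / 2) := by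
    rcases le_total m n with hle | hle
    · obtain ⟨t, ht⟩ : ∃ t, d / 2 = m + t := ⟨d / 2 - m, by omega⟩
      have h2 : (d + 1) / 2 + t = n := by omega
      rw [ht, ← h2]
      have h3 : m + t ≤ (d + 1) / 2 := by omega
      nlinarith
    · obtain ⟨t, ht⟩ : ∃ t, d / 2 = n + t := ⟨d / 2 - n, by omega⟩
      have h2 : (d + 1) / 2 + t = m := by omega
      rw [ht, ← h2]
      have h3 : n + t ≤ (d + 1) / 2 := by omega
      nlinarith
  have hmnR : (m * n : ℝ) ≤ (d / 2 : ℕ) * ((d + 1) / 2 : ℕ) := by exact_mod_cast hmn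
  have hsumR : ((d / 2 : ℕ) : ℝ) + ((d + 1) / 2 : ℕ) = m + n := by
    exact_mod_cast hsum.trans h.symm
  rw [div_mul_eq_mul_div, le_div_iff₀ (by positivity)]
  have hm0 : (0 : ℝ) ≤ m := Nat.cast_nonneg m
  have hn0 : (0 : ℝ) ≤ n := Nat.cast_nonneg n
  have e1 : ((m : ℝ) + 1) * (n + 1) = m * n + (m + n + 1) := by ring
  have e2 : (((d / 2 : ℕ) : ℝ) + 1) * (((d + 1) / 2 : ℕ) + 1) =
      (d / 2 : ℕ) * ((d + 1) / 2 : ℕ) + (m + n + 1) := by
    rw [← hsumR]; ring
  rw [e1, e2]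
  have h3 := mul_le_mul_of_nonneg_right hmnR (show (0 : ℝ) ≤ m + n + 1 by positivity)
  nlinarith

/-- `kapd d = sqrt (m n / ((m + 1) (n + 1)))`, `m = ⌊d / 2⌋`, `n = ⌈d / 2⌉`: this is `d / (d + 2)`
for even `d` and `sqrt ((d - 1) / (d + 3))` for odd `d`. -/
theorem kappa_le_one (d : ℕ) : Real.sqrt (((d / 2 : ℕ) * ((d + 1) / 2 : ℕ) : ℝ) /
      (((d / 2 : ℕ) + 1) * (((d + 1) / 2 : ℕ) + 1))) ≤ 1 := by
  refine Real.sqrt_le_one.2 ?_
  rw [div_le_one (by positivity)]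
  have h1 : (0 : ℝ) ≤ (d / 2 : ℕ) := Nat.cast_nonneg _
  have h2 : (0 : ℝ) ≤ ((d + 1) / 2 : ℕ) := Nat.cast_nonneg _
  nlinarith

/-- Exact angle in a cell (for unit vectors, coordinates by an isometry onto the sum zero
hyperplane). -/
theorem cell_angle_exact {d : ℕ}
    (L : EuclideanSpace ℝ (Fin d) →ₗᵢ[ℝ] EuclideanSpace ℝ (Fin (d + 1)))
    (hL : ∀ u, ∑ i, L u i = 0) (u v : EuclideanSpace ℝ (Fin d)) (k : Fin (d + 1))
    (hu : ∀ j, L u j ≤ L u k) (hv : ∀ j, L v j ≤ L v k) (hu1 : ‖u‖ = 1) (hv1 : ‖v‖ = 1) :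
    angle u v ≤ Real.pi - Real.arccos (Real.sqrt (((d / 2 : ℕ) * ((d + 1) / 2 : ℕ) : ℝ) /
      (((d / 2 : ℕ) + 1) * (((d + 1) / 2 : ℕ) + 1)))) := by
  set κ := Real.sqrt (((d / 2 : ℕ) * ((d + 1) / 2 : ℕ) : ℝ) /
      (((d / 2 : ℕ) + 1) * (((d + 1) / 2 : ℕ) + 1))) with hκ
  have h := cell_exact (fun j => L u j) (fun j => L v j) (hL u) (hL v) k hu hv κ
    (Real.sqrt_nonneg _) (kappa_le_one d) (kappa_ok d)
  have h1 : ∑ j, (L u j - L v j) ^ 2 = ‖u - v‖ ^ 2 := by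
    rw [← L.norm_map (u - v), EuclideanSpace.norm_sq_eq]
    simp
  have h2 : ∑ j, (L u j + L v j) ^ 2 = ‖u + v‖ ^ 2 := by
    rw [← L.norm_map (u + v), EuclideanSpace.norm_sq_eq]
    simp
  rw [h1, h2, norm_sub_sq_real, norm_add_sq_real, hu1, hv1] at h
  have h3 : -κ ≤ ⟪u, v⟫ := by linarith
  rw [← Real.arccos_neg]
  unfold angle
  rw [hu1, hv1]
  apply Real.arccos_le_arccos
  simpa using h3

end Vale.Agent.P052.R3.H436
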