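import Vale.Agent.P052.R3.H304.Sel
import Vale.Agent.P052.R3.H436.Exact

/-! The exact cell constant in the form used by `P052.R3.H304.Sel`. -/

namespace Vale.Agent.P052.R3.H436

open Vale.Agent.P052.R3.H304

/-- `κ = √(m n / ((m + 1) (n + 1)))`, `m = ⌊d / 2⌋`, `n = ⌈d / 2⌉`. -/
theorem cellBound_exact (d : ℕ) :
    CellBound d (Real.sqrt (((d / 2 : ℕ) * ((d + 1) / 2 : ℕ) : ℝ) /
      (((d / 2 : ℕ) + 1) * (((d + 1) / 2 : ℕ) + 1)))) :=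
  fun L hL u v k hu hv hu1 hv1 => cell_angle_exact L hL u v k hu hv hu1 hv1

theorem kappa_lt_one (d : ℕ) : Real.sqrt (((d / 2 : ℕ) * ((d + 1) / 2 : ℕ) : ℝ) /
      (((d / 2 : ℕ) + 1) * (((d + 1) / 2 : ℕ) + 1))) < 1 := by
  rw [Real.sqrt_lt' one_pos, one_pow, div_lt_one (by positivity)]
  have h1 : (0 : ℝ) ≤ (d / 2 : ℕ) := Nat.cast_nonneg _
  have h2 : (0 : ℝ) ≤ ((d + 1) / 2 : ℕ) := Nat.cast_nonneg _
  nlinarith

theorem neg_one_le_kappa (d : ℕ) : -1 ≤ Real.sqrt (((d / 2 : ℕ) * ((d + 1) / 2 : ℕ) : ℝ) /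
      (((d / 2 : ℕ) + 1) * (((d + 1) / 2 : ℕ) + 1))) :=
  le_trans (by norm_num) (Real.sqrt_nonneg _)

end Vale.Agent.P052.R3.H436
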